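import Mathlib
import Vale.Agent.Lib.Helper7.GaussSmall
import Vale.Agent.Lib.Helper7.GaussUniv
import Vale.Agent.Lib.Helper7.GaussSym
import Vale.Agent.Lib.Helper7.GaussThree
import Vale.Agent.Lib.Helper7.GaussDefs

/-!
# P226 (Gaussian propeller): combined bounds

Let `A 1, ..., A k` be measurable subsets of `R^d` whose pairwise intersections are null for the
standard Gaussian measure (in particular any measurable partition), and let `S = momentSum A` be the sum
of the squared norms of the Gaussian first moments `∫_{A i} x dγ`.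

* `S ≤ 81 / 200` always.
* If every cell has Gaussian measure at most `1 / 7`, then `S ≤ 9 / (8 π)`.
* If the family is invariant under the antipodal map (an involution `σ` of the index set with
  `A (σ i) = -A i`), then `S ≤ 1 / π`.
* If a linear isometry `R` with `R (R (R x)) = x` and without nonzero fixed vectors maps the
  family to itself (a map `τ` of the index set with `τ (τ (τ i)) = i` and `A (τ i) = R '' A i`),
  then `S ≤ 9 / (8 π)`.
-/

namespace Vale.Agent.Results.P226.Combined

open MeasureTheory ProbabilityTheory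
open Vale.Agent.Lib.Helper7.Gauss (momentSum)

theorem result (d k : ℕ) (A : Fin k → Set (EuclideanSpace ℝ (Fin d)))
    (hmeas : ∀ i, MeasurableSet (A i))
    (hdisj : ∀ i j, i ≠ j → stdGaussian (EuclideanSpace ℝ (Fin d)) (A i ∩ A j) = 0) :
    momentSum A ≤ 81 / 200 ∧
    ((∀ i, stdGaussian (EuclideanSpace ℝ (Fin d)) (A i) ≤ 1 / 7) →
      momentSum A ≤ 9 / (8 * Real.pi)) ∧
    (∀ σ : Fin k → Fin k, (∀ i, σ (σ i) = i) → (∀ i, A (σ i) = {x | -x ∈ A i}) →
      momentSum A ≤ 1 / Real.pi) ∧
    (∀ R : EuclideanSpace ℝ (Fin d) ≃ₗᵢ[ℝ] EuclideanSpace ℝ (Fin d),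
      (∀ x, R (R (R x)) = x) → (∀ x, R x = x → x = 0) →
      ∀ τ : Fin k → Fin k, (∀ i, τ (τ (τ i)) = i) → (∀ i, A (τ i) = R '' A i) →
      momentSum A ≤ 9 / (8 * Real.pi)) := by
  unfold momentSum
  have hpi := Real.pi_pos
  have hone := Vale.Agent.Lib.Helper7.Gauss.sum_measureReal_le_one A hmeas hdisj
  refine ⟨?_, fun hsmall => ?_, fun σ hσ hsym => ?_, fun R hR3 hfix τ hτ hsym => ?_⟩
  · calc ∑ i, ‖∫ x in A i, x ∂(stdGaussian (EuclideanSpace ℝ (Fin d)))‖ ^ 2
        ≤ ∑ i, 81 / 200 * (stdGaussian (EuclideanSpace ℝ (Fin d))).real (A i) :=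
          Finset.sum_le_sum fun i _ =>
            Vale.Agent.Lib.Helper7.Gauss.set_moment_univ (A i)
      _ = 81 / 200 * ∑ i, (stdGaussian (EuclideanSpace ℝ (Fin d))).real (A i) := by
          rw [Finset.mul_sum]
      _ ≤ 81 / 200 * 1 := mul_le_mul_of_nonneg_left hone (by norm_num)
      _ = 81 / 200 := mul_one _
  · calc ∑ i, ‖∫ x in A i, x ∂(stdGaussian (EuclideanSpace ℝ (Fin d)))‖ ^ 2
        ≤ ∑ i, 9 / (8 * Real.pi) * (stdGaussian (EuclideanSpace ℝ (Fin d))).real (A i) :=
          Finset.sum_le_sum fun i _ =>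
            Vale.Agent.Lib.Helper7.Gauss.small_set_moment (hsmall i)
      _ = 9 / (8 * Real.pi) * ∑ i, (stdGaussian (EuclideanSpace ℝ (Fin d))).real (A i) := by
          rw [Finset.mul_sum]
      _ ≤ 9 / (8 * Real.pi) * 1 := mul_le_mul_of_nonneg_left hone (by positivity)
      _ = 9 / (8 * Real.pi) := mul_one _
  · apply Vale.Agent.Lib.Helper7.Gauss.symmetric_moment_bound A hmeas hdisj σ hσ
    intro i
    rw [hsym i]
    exact Vale.Agent.Lib.Helper7.Gauss.setIntegral_neg_preimage (A i)
  · have hR : ∀ x, x + R x + R (R x) = 0 := by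
      intro x
      apply hfix
      rw [map_add, map_add, hR3]
      abel
    apply Vale.Agent.Lib.Helper7.Gauss.threefold_moment_bound A hmeas hdisj R hR τ hτ
    intro i
    rw [hsym i]
    exact Vale.Agent.Lib.Helper7.Gauss.setIntegral_image_isometry R (A i)

end Vale.Agent.Results.P226.Combined
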