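import Mathlib
import Vale.Agent.Lib.Helper7.GaussSmall

/-!
# P226 (Gaussian propeller): the inequality for families of small cells

For every dimension `d`, every `k`, and every family `A 1, ..., A k` of measurable subsets of
`R^d` whose pairwise intersections are null for the standard Gaussian measure and each of
which has Gaussian measure at most `1 / 7`, the sum of the squared norms of the Gaussian
first moments `∫_{A i} x dγ` is at most `9 / (8 π)`.
-/

namespace Vale.Agent.Results.P226.SmallCells

open MeasureTheory ProbabilityTheory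

theorem result (d k : ℕ) (A : Fin k → Set (EuclideanSpace ℝ (Fin d)))
    (hmeas : ∀ i, MeasurableSet (A i))
    (hdisj : ∀ i j, i ≠ j → stdGaussian (EuclideanSpace ℝ (Fin d)) (A i ∩ A j) = 0)
    (hsmall : ∀ i, stdGaussian (EuclideanSpace ℝ (Fin d)) (A i) ≤ 1 / 7) :
    ∑ i, ‖∫ x in A i, x ∂(stdGaussian (EuclideanSpace ℝ (Fin d)))‖ ^ 2
      ≤ 9 / (8 * Real.pi) := by
  have hpi := Real.pi_pos
  calc ∑ i, ‖∫ x in A i, x ∂(stdGaussian (EuclideanSpace ℝ (Fin d)))‖ ^ 2
      ≤ ∑ i, 9 / (8 * Real.pi) * (stdGaussian (EuclideanSpace ℝ (Fin d))).real (A i) :=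
        Finset.sum_le_sum fun i _ =>
          Vale.Agent.Lib.Helper7.Gauss.small_set_moment (hsmall i)
    _ = 9 / (8 * Real.pi) * ∑ i, (stdGaussian (EuclideanSpace ℝ (Fin d))).real (A i) := by
        rw [Finset.mul_sum]
    _ ≤ 9 / (8 * Real.pi) * 1 :=
        mul_le_mul_of_nonneg_left
          (Vale.Agent.Lib.Helper7.Gauss.sum_measureReal_le_one A hmeas hdisj) (by positivity)
    _ = 9 / (8 * Real.pi) := mul_one _

end Vale.Agent.Results.P226.SmallCells
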