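import Mathlib
import Vale.Agent.Lib.Helper7.GaussSym

/-!
# P226 (Gaussian propeller): centrally symmetric partitions

Let `A 1, ..., A k` be measurable subsets of `R^d` with pairwise Gaussian-null intersections,
and suppose the family is invariant under the antipodal map: there is an involution `σ` of the
index set with `A (σ i) = -A i` for every `i` (fixed points of `σ` are allowed). Then the sum of
the squared norms of the Gaussian first moments is at most `1 / π`, which is smaller than the
propeller value `9 / (8 π)`.
-/

namespace Vale.Agent.Results.P226.SymmetricPartition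

open MeasureTheory ProbabilityTheory

theorem result (d k : ℕ) (A : Fin k → Set (EuclideanSpace ℝ (Fin d)))
    (hmeas : ∀ i, MeasurableSet (A i))
    (hdisj : ∀ i j, i ≠ j → stdGaussian (EuclideanSpace ℝ (Fin d)) (A i ∩ A j) = 0)
    (σ : Fin k → Fin k) (hσ : ∀ i, σ (σ i) = i)
    (hsym : ∀ i, A (σ i) = {x | -x ∈ A i}) :
    ∑ i, ‖∫ x in A i, x ∂(stdGaussian (EuclideanSpace ℝ (Fin d)))‖ ^ 2 ≤ 1 / Real.pi := by
  apply Vale.Agent.Lib.Helper7.Gauss.symmetric_moment_bound A hmeas hdisj σ hσ
  intro i
  rw [hsym i]
  exact Vale.Agent.Lib.Helper7.Gauss.setIntegral_neg_preimage (A i)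

end Vale.Agent.Results.P226.SymmetricPartition
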