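import Mathlib
import Vale.Agent.Lib.Helper7.GaussThree

/-!
# P226 (Gaussian propeller): partitions with a threefold rotational symmetry

Let `R` be a linear isometry of `R^d` with `R (R (R x)) = x` for all `x` and without nonzero
fixed vectors (for example the rotation by `2 π / 3` in each plane of an orthogonal splitting of
`R^d` into planes). Let `A 1, ..., A k` be measurable subsets of `R^d` with pairwise
Gaussian-null intersections, and suppose that `R` maps the family to itself: there is a map `τ`
of the index set with `τ (τ (τ i)) = i` and `A (τ i) = R '' A i` for every `i`. Then the sum of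
the squared norms of the Gaussian first moments is at most `9 / (8 π)`, the propeller value.
-/

namespace Vale.Agent.Results.P226.ThreefoldSymmetric

open MeasureTheory ProbabilityTheory

theorem result (d k : ℕ) (A : Fin k → Set (EuclideanSpace ℝ (Fin d)))
    (hmeas : ∀ i, MeasurableSet (A i))
    (hdisj : ∀ i j, i ≠ j → stdGaussian (EuclideanSpace ℝ (Fin d)) (A i ∩ A j) = 0)
    (R : EuclideanSpace ℝ (Fin d) ≃ₗᵢ[ℝ] EuclideanSpace ℝ (Fin d))
    (hR3 : ∀ x, R (R (R x)) = x) (hfix : ∀ x, R x = x → x = 0)
    (τ : Fin k → Fin k) (hτ : ∀ i, τ (τ (τ i)) = i)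
    (hsym : ∀ i, A (τ i) = R '' A i) :
    ∑ i, ‖∫ x in A i, x ∂(stdGaussian (EuclideanSpace ℝ (Fin d)))‖ ^ 2
      ≤ 9 / (8 * Real.pi) := by
  have hR : ∀ x, x + R x + R (R x) = 0 := by
    intro x
    apply hfix
    rw [map_add, map_add, hR3]
    abel
  apply Vale.Agent.Lib.Helper7.Gauss.threefold_moment_bound A hmeas hdisj R hR τ hτ
  intro i
  rw [hsym i]
  exact Vale.Agent.Lib.Helper7.Gauss.setIntegral_image_isometry R (A i)

end Vale.Agent.Results.P226.ThreefoldSymmetric
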